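import Mathlib
import Vale.Agent.P040.Defs
import Vale.Agent.P040.TreeDefs
import Vale.Agent.P040.TreeMain
import Vale.Agent.P040.TreeArc

/-!
Zarankiewicz's crossing bound for drawings with an uncrossed tree through a colour class.
-/

namespace Vale.Agent.Results.P040.UncrossedTreeThroughClass

open Vale.Agent.P040

/-- Every drawing of `K_{m,n}` in which one colour class lies on an uncrossed plane tree has at
least `⌊m/2⌋⌊(m-1)/2⌋⌊n/2⌋⌊(n-1)/2⌋` crossing points; every straightenable arc is a plane tree. -/
theorem result :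
    (∀ (m n : ℕ) (D : Drawing m n), D.ClassOnUncrossedTree →
      m / 2 * ((m - 1) / 2) * (n / 2 * ((n - 1) / 2)) ≤ D.crossings.ncard) ∧
    ∀ S : Set ℂ, IsPlaneArc S → IsPlaneTree S :=
  ⟨fun _ _ D hD => zarankiewicz_uncrossed_tree D hD, fun _ hS => isPlaneTree_of_isPlaneArc hS⟩

end Vale.Agent.Results.P040.UncrossedTreeThroughClass
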